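import Vale.Agent.P327.H390.Main

/-!
# Rigidity of all cones and all final segments of the Turing degrees (P327)

The rigidity conjecture (first conjunct) in the strong form that every order isomorphism between
two final segments of the Turing degrees, in particular between two cones, is the identity.
-/

namespace Vale.Agent.Results.P327.FinalSegments

open Vale.Agent.P327

/-- (1) Every order automorphism of the Turing degrees is the identity. (2) If the cones above the
degrees `a` and `b` are isomorphic as partial orders, then `a = b`, and the only isomorphism is the
identity. (3) Every order isomorphism between two upward closed sets `U`, `V` of Turing degrees is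
the identity, and `U = V`. -/
theorem result :
    (∀ (π : TDeg ≃o TDeg) (a : TDeg), π a = a) ∧
    (∀ (a b : TDeg) (π : Set.Ici a ≃o Set.Ici b), a = b ∧ ∀ x : Set.Ici a, (π x : TDeg) = x) ∧
    (∀ U V : Set TDeg, IsUpperSet U → IsUpperSet V → ∀ π : U ≃o V,
      U = V ∧ ∀ x : U, (π x : TDeg) = x) := by
  refine ⟨fun π a => ?_, cone_rigid, fun U V hU hV π => upper_rigid hU hV π⟩
  let e : (Set.univ : Set TDeg) ≃o (Set.univ : Set TDeg) :=
    OrderIso.Set.univ.trans (π.trans OrderIso.Set.univ.symm)
  exact (upper_rigid isUpperSet_univ isUpperSet_univ e).2 ⟨a, Set.mem_univ a⟩

end Vale.Agent.Results.P327.FinalSegments
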