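import Vale.Agent.P327.H228.Comp

/-!
# Rigidity of the Turing degrees and of their quotients by countable ideals (P327)

The rigidity conjecture (first conjunct), rigidity of final segments from comparability alone, and
rigidity of all quotients of the Turing degrees by countable ideals.
-/

namespace Vale.Agent.Results.P327.RigidQuotients

open Vale.Agent.P327.H228

/-- (1) Every order automorphism of the Turing degrees is the identity. (2) Every bijection between
two upward closed sets `U`, `V` of Turing degrees which preserves comparability in both directions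
is the identity, and `U = V`. (3) For countable ideals `I`, `J` of Turing degrees every bijection
between the quotients modulo `I` and modulo `J` which preserves comparability in both directions
sends the class of `a` to the class of `a` for every degree `a`, and `I = J`. (4) The statement (2)
holds in the quotient modulo every countable ideal. -/
theorem result :
    (∀ (π : DT ≃o DT) (a : DT), π a = a) ∧
    (∀ U V : Set DT, IsUpperSet U → IsUpperSet V → ∀ e : U ≃ V,
      (∀ x y : U, (x ≤ y ∨ y ≤ x) ↔ (e x ≤ e y ∨ e y ≤ e x)) →
        U = V ∧ ∀ x : U, (e x : DT) = x) ∧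
    (∀ I J : Order.Ideal DT, (I : Set DT).Countable → (J : Set DT).Countable → ∀ e : DQ I ≃ DQ J,
      (∀ x y : DQ I, (x ≤ y ∨ y ≤ x) ↔ (e x ≤ e y ∨ e y ≤ e x)) →
        I = J ∧ ∀ a : DT, e (cls I a) = cls J a) ∧
    (∀ I : Order.Ideal DT, (I : Set DT).Countable → ∀ U V : Set (DQ I), IsUpperSet U →
      IsUpperSet V → ∀ e : U ≃ V, (∀ x y : U, (x ≤ y ∨ y ≤ x) ↔ (e x ≤ e y ∨ e y ≤ e x)) →
        U = V ∧ ∀ x : U, (e x : DQ I) = x) := by
  refine ⟨fun π a => ?_, fun U V hU hV e he => final_rigid_DT hU hV e he,
    fun I J hI hJ e he => quot_rigid hI hJ e he,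
    fun I hI U V hU hV e he => final_rigid hI hU hV e he⟩
  let e : (Set.univ : Set DT) ≃ (Set.univ : Set DT) :=
    (Equiv.Set.univ _).trans (π.toEquiv.trans (Equiv.Set.univ _).symm)
  have he : ∀ x y : (Set.univ : Set DT), (x ≤ y ∨ y ≤ x) ↔ (e x ≤ e y ∨ e y ≤ e x) := fun x y =>
    (or_congr (π.le_iff_le (x := (x : DT)) (y := y)) (π.le_iff_le (x := (y : DT)) (y := x))).symm
  exact (final_rigid_DT isUpperSet_univ isUpperSet_univ e he).2 ⟨a, Set.mem_univ a⟩

end Vale.Agent.Results.P327.RigidQuotients
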